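import Mathlib

/-! # P347: calculus along rays for well-conditioned potentials. -/

namespace Vale.Agent.P347

open MeasureTheory

variable {E : Type*} [NormedAddCommGroup E] [NormedSpace ℝ E]

/-- Excess radial slope of `V` along `v` at parameter `s` over the quadratic with curvature `Q`. -/
noncomputable def slope0 (V : E → ℝ) (v : E) (Q s : ℝ) : ℝ := fderiv ℝ V (s • v) v - s * Q

lemma hasDerivAt_line {V : E → ℝ} (hV : ContDiff ℝ 2 V) (v : E) (s : ℝ) :
    HasDerivAt (fun t : ℝ => V (t • v)) (fderiv ℝ V (s • v) v) s := by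
  have h1 : HasDerivAt (fun t : ℝ => t • v) v s := by
    simpa using (hasDerivAt_id s).smul_const v
  exact ((hV.differentiable (by norm_num)) (s • v)).hasFDerivAt.comp_hasDerivAt s h1

lemma hasDerivAt_line_fderiv {V : E → ℝ} (hV : ContDiff ℝ 2 V) (v : E) (s : ℝ) :
    HasDerivAt (fun t : ℝ => fderiv ℝ V (t • v) v)
      (iteratedFDeriv ℝ 2 V (s • v) ![v, v]) s := by
  have hd : Differentiable ℝ (fderiv ℝ V) :=
    (hV.fderiv_right (m := 1) (by norm_num)).differentiable (by norm_num)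
  have h1 : HasDerivAt (fun t : ℝ => t • v) v s := by
    simpa using (hasDerivAt_id s).smul_const v
  have h2 := (hd (s • v)).hasFDerivAt.comp_hasDerivAt s h1
  have h3 := h2.clm_apply (hasDerivAt_const s v)
  rw [iteratedFDeriv_two_apply]
  simpa using h3

lemma hasDerivAt_slope0 {V : E → ℝ} (hV : ContDiff ℝ 2 V) (v : E) (Q s : ℝ) :
    HasDerivAt (slope0 V v Q) (iteratedFDeriv ℝ 2 V (s • v) ![v, v] - Q) s := by
  exact ((hasDerivAt_line_fderiv hV v s).sub ((hasDerivAt_id s).mul_const Q)).congr_deriv (by simp)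

lemma slope0_bounds {V : E → ℝ} (hV : ContDiff ℝ 2 V) (h0 : fderiv ℝ V 0 = 0) (v : E) (Q : ℝ)
    (hQ : ∀ x, Q ≤ iteratedFDeriv ℝ 2 V x ![v, v] ∧ iteratedFDeriv ℝ 2 V x ![v, v] ≤ 2 * Q)
    {s : ℝ} (hs : 0 ≤ s) : 0 ≤ slope0 V v Q s ∧ slope0 V v Q s ≤ s * Q := by
  have e0 : slope0 V v Q 0 = 0 := by simp [slope0, h0]
  have m1 : Monotone (slope0 V v Q) :=
    monotone_of_hasDerivAt_nonneg (hasDerivAt_slope0 hV v Q)
      (fun x => sub_nonneg.2 (hQ (x • v)).1)
  have m2 : Monotone (fun t => t * Q - slope0 V v Q t) :=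
    monotone_of_hasDerivAt_nonneg
      (fun x => ((hasDerivAt_id x).mul_const Q).sub (hasDerivAt_slope0 hV v Q x))
      (fun x => by
        have := (hQ (x • v)).2
        simp only [Pi.zero_apply, one_mul]
        linarith)
  have h1 := m1 hs
  have h2 := m2 hs
  simp only [e0, zero_mul, sub_zero] at h1 h2
  exact ⟨h1, by linarith⟩

lemma continuous_slope0 {V : E → ℝ} (hV : ContDiff ℝ 2 V) (v : E) (Q : ℝ) :
    Continuous (slope0 V v Q) :=
  continuous_iff_continuousAt.2 fun s => (hasDerivAt_slope0 hV v Q s).continuousAt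

lemma integral_slope0 {V : E → ℝ} (hV : ContDiff ℝ 2 V) (v : E) (Q : ℝ) :
    ∫ s in (0:ℝ)..1, slope0 V v Q s = V v - V 0 - Q / 2 := by
  have hd : ∀ s : ℝ, HasDerivAt (fun t : ℝ => V (t • v) - t ^ 2 / 2 * Q) (slope0 V v Q s) s := by
    intro s
    have h1 : HasDerivAt (fun t : ℝ => t ^ 2 / 2 * Q) (s * Q) s := by
      simpa using (((hasDerivAt_id s).pow 2).div_const 2).mul_const Q
    exact (hasDerivAt_line hV v s).sub h1
  rw [intervalIntegral.integral_eq_sub_of_hasDerivAt (fun s _ => hd s)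
    ((continuous_slope0 hV v Q).intervalIntegrable 0 1)]
  simp
  ring

end Vale.Agent.P347
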