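import Vale.Agent.P347.Gauss

/-! # P347: one randomized rejection attempt, with a truncated Poisson acceptance test. -/

namespace Vale.Agent.P347

open MeasureTheory Real ProbabilityTheory

open scoped NNReal

variable {k M : ℕ}

/-- Poisson weights. -/
noncomputable def pm (c : ℝ≥0) (n : ℕ) : ℝ := exp (-c) * (c:ℝ) ^ n / n.factorial

lemma pm_nonneg (c : ℝ≥0) (n : ℕ) : 0 ≤ pm c n := by
  unfold pm; positivity

lemma hasSum_pm_pow (c : ℝ≥0) (x : ℝ) :
    HasSum (fun n => pm c n * x ^ n) (exp (c * x - c)) := by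
  have h := (NormedSpace.expSeries_div_hasSum_exp ((c:ℝ) * x)).mul_left (exp (-(c:ℝ)))
  rw [← Real.exp_eq_exp_ℝ, ← exp_add] at h
  convert! h using 1
  · ext n; simp only [pm, mul_pow]; ring
  · ring_nf

/-- Randomness used by one attempt. -/
abbrev Att (k M : ℕ) := (Fin k → ℝ) × ℕ × (Fin M → ℝ × ℝ)

/-- Uniform law on the unit interval. -/
noncomputable def unif : Measure ℝ := volume.restrict (Set.Icc 0 1)

instance isProb_unif : IsProbabilityMeasure unif := ⟨by simp [unif]⟩

/-- Law of one attempt. -/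
noncomputable def attLaw (k M : ℕ) (c : ℝ≥0) : Measure (Att k M) :=
  (gauss k).prod ((poissonMeasure c).prod (Measure.pi fun _ : Fin M => unif.prod unif))

instance isProb_attLaw (c : ℝ≥0) : IsProbabilityMeasure (attLaw k M c) := by
  unfold attLaw; infer_instance

/-- The acceptance test, given the values `wv j` of the coin biases. -/
def Accv (c : ℝ≥0) (ω : Att k M) (wv : Fin M → ℝ) : Prop :=
  sqn ω.1 ≤ c ∧ ω.2.1 ≤ M ∧ ∀ j : Fin M, (j : ℕ) < ω.2.1 → wv j ≤ (ω.2.2 j).2

lemma measurableSet_accv {T : Type*} [MeasurableSpace T] (c : ℝ≥0) {p : T → Att k M}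
    {wv : T → Fin M → ℝ} (hp : Measurable p) (hw : ∀ j, Measurable fun t => wv t j) :
    MeasurableSet {t | Accv c (p t) (wv t)} := by
  have h1 : MeasurableSet {t | sqn (p t).1 ≤ c} :=
    measurableSet_le (continuous_sqn.measurable.comp hp.fst) measurable_const
  have h2 : MeasurableSet {t | (p t).2.1 ≤ M} :=
    hp.snd.fst (MeasurableSet.of_discrete (s := {n : ℕ | n ≤ M}))
  have h3 : ∀ j : Fin M, MeasurableSet {t | (j : ℕ) < (p t).2.1 → wv t j ≤ ((p t).2.2 j).2} := by
    intro j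
    have a : MeasurableSet {t | (j : ℕ) < (p t).2.1} :=
      hp.snd.fst (MeasurableSet.of_discrete (s := {n : ℕ | (j : ℕ) < n}))
    have b : MeasurableSet {t | wv t j ≤ ((p t).2.2 j).2} :=
      measurableSet_le (hw j) ((measurable_pi_apply j).comp hp.snd.snd).snd
    convert! a.compl.union b using 1
    ext t; simp [imp_iff_not_or]
  have h4 : MeasurableSet (⋂ j : Fin M, {t | (j : ℕ) < (p t).2.1 → wv t j ≤ ((p t).2.2 j).2}) :=
    MeasurableSet.iInter h3
  convert! h1.inter (h2.inter h4) using 1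
  ext t; simp [Accv]

/-- Acceptance with the biases `ψ z (U_j) / c`. -/
def AccSet (c : ℝ≥0) (ψ : (Fin k → ℝ) → ℝ → ℝ) : Set (Att k M) :=
  {ω | Accv c ω fun j => ψ ω.1 (ω.2.2 j).1 / c}

lemma measurableSet_acc (c : ℝ≥0) {ψ : (Fin k → ℝ) → ℝ → ℝ}
    (hψ : Measurable (Function.uncurry ψ)) : MeasurableSet (AccSet (M := M) c ψ) :=
  measurableSet_accv c measurable_id fun j =>
    (hψ.comp (measurable_fst.prodMk
      ((measurable_pi_apply j).comp measurable_snd.snd).fst)).div_const _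

/-- Acceptance probability as a function of the proposal. -/
noncomputable def ab (M : ℕ) (c : ℝ≥0) (g : (Fin k → ℝ) → ℝ) (z : Fin k → ℝ) : ℝ :=
  if sqn z ≤ c then ∑ n ∈ Finset.range (M + 1), pm c n * (1 - g z / c) ^ n else 0

variable {c : ℝ≥0} {ψ : (Fin k → ℝ) → ℝ → ℝ} {g : (Fin k → ℝ) → ℝ}

lemma measurable_ab (hg : Measurable g) : Measurable (ab M c g) :=
  Measurable.ite (measurableSet_le continuous_sqn.measurable measurable_const)
    (Finset.measurable_sum _ fun n _ => ((((hg.div_const _).const_sub 1).pow_const n).const_mul _))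
    measurable_const

lemma g_div_le (h2 : ∀ z, g z ≤ sqn z / 2) {z : Fin k → ℝ} (hz : sqn z ≤ c) :
    0 ≤ 1 - g z / c := by
  rcases eq_or_ne c 0 with rfl | hc
  · simp
  have hc' : (0:ℝ) < c := NNReal.coe_pos.2 (pos_iff_ne_zero.2 hc)
  have := h2 z
  rw [sub_nonneg, div_le_one hc']
  linarith [sqn_nonneg z]

lemma ab_nonneg (h2 : ∀ z, g z ≤ sqn z / 2) (z : Fin k → ℝ) : 0 ≤ ab M c g z := by
  unfold ab
  split_ifs with h
  · exact Finset.sum_nonneg fun n _ => mul_nonneg (pm_nonneg c n) (pow_nonneg (g_div_le h2 h) n)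
  · rfl

lemma ab_le_exp (hc : 0 < c) (h2 : ∀ z, g z ≤ sqn z / 2) (z : Fin k → ℝ) :
    ab M c g z ≤ exp (-g z) := by
  unfold ab
  split_ifs with h
  · have hs := hasSum_pm_pow c (1 - g z / c)
    have hc' : (c:ℝ) ≠ 0 := (NNReal.coe_pos.2 hc).ne'
    rw [show (c:ℝ) * (1 - g z / c) - c = -g z by field_simp; ring] at hs
    exact sum_le_hasSum _ (fun n _ => mul_nonneg (pm_nonneg c n)
      (pow_nonneg (g_div_le h2 h) n)) hs
  · exact (exp_pos _).le

lemma exp_sub_ab_le (hc : 0 < c) (hM : 3 * (c:ℝ) ≤ M) (h1 : ∀ z, 0 ≤ g z)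
    (h2 : ∀ z, g z ≤ sqn z / 2) (z : Fin k → ℝ) :
    exp (-g z) ≤ ab M c g z + exp (-(c:ℝ)) + exp (1/4 * sqn z) * exp (-(c:ℝ) / 4) := by
  have hpos := exp_pos (-(c:ℝ))
  have hpos2 : 0 < exp (1/4 * sqn z) * exp (-(c:ℝ) / 4) := by positivity
  unfold ab
  split_ifs with h
  · set x := 1 - g z / c with hx
    have hc' : (c:ℝ) ≠ 0 := (NNReal.coe_pos.2 hc).ne'
    have hs := hasSum_pm_pow c x
    rw [show (c:ℝ) * x - c = -g z by rw [hx]; field_simp; ring] at hs
    have hf : HasSum (fun n => if n ∈ Finset.range (M + 1) then pm c n * x ^ n else 0)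
        (∑ n ∈ Finset.range (M + 1), pm c n * x ^ n) := by
      have := hasSum_sum_of_ne_finset_zero (L := SummationFilter.unconditional ℕ)
        (f := fun n => if n ∈ Finset.range (M + 1) then pm c n * x ^ n else 0)
        (s := Finset.range (M + 1)) (fun n hn => if_neg hn)
      rwa [Finset.sum_congr rfl fun n hn => if_pos hn] at this
    have ht := (hasSum_pm_pow c (exp 1)).mul_left (exp (-(M:ℝ)))
    have hle := hasSum_le (fun n => ?_) hs (hf.add ht)
    · have he : exp (-(M:ℝ)) * exp (c * exp 1 - c) ≤ exp (-(c:ℝ)) := by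
        rw [← exp_add]
        refine exp_le_exp.2 ?_
        have : exp 1 ≤ 3 := exp_one_lt_three.le
        nlinarith [NNReal.coe_nonneg c]
      linarith
    · have x0 : 0 ≤ x := g_div_le h2 h
      have x1 : x ≤ 1 := by
        rw [hx]; have := div_nonneg (h1 z) (NNReal.coe_nonneg c); linarith
      have hp := pm_nonneg c n
      by_cases hn : n ∈ Finset.range (M + 1)
      · rw [if_pos hn]
        have : 0 ≤ exp (-(M:ℝ)) * (pm c n * exp 1 ^ n) := by positivity
        linarith
      · rw [if_neg hn, zero_add]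
        rw [Finset.mem_range, not_lt] at hn
        have h3 : 1 ≤ exp (-(M:ℝ)) * exp 1 ^ n := by
          rw [← exp_nat_mul, ← exp_add, mul_one]
          refine one_le_exp ?_
          have : (M:ℝ) ≤ n := by exact_mod_cast (Nat.le_succ M).trans hn
          linarith
        calc pm c n * x ^ n ≤ pm c n * 1 := by gcongr; exact pow_le_one₀ x0 x1
          _ ≤ pm c n * (exp (-(M:ℝ)) * exp 1 ^ n) := by gcongr
          _ = _ := by ring
  · have : exp (-g z) ≤ exp (1/4 * sqn z) * exp (-(c:ℝ) / 4) := by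
      rw [← exp_add]
      exact exp_le_exp.2 (by linarith [h1 z, not_le.1 h])
    linarith

lemma inner_law (hc : 0 < c) (hψm : Measurable (Function.uncurry ψ))
    (hψc : ∀ z, Continuous (ψ z))
    (hψb : ∀ z s, 0 ≤ s → 0 ≤ ψ z s ∧ ψ z s ≤ s * sqn z)
    (hψi : ∀ z, ∫ s in (0:ℝ)..1, ψ z s = g z) {z : Fin k → ℝ} (hz : sqn z ≤ c) :
    (unif.prod unif) {p : ℝ × ℝ | ψ z p.1 / c ≤ p.2} = ENNReal.ofReal (1 - g z / c) := by
  have hc' : (0:ℝ) < c := NNReal.coe_pos.2 hc
  have hm : MeasurableSet {p : ℝ × ℝ | ψ z p.1 / c ≤ p.2} :=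
    measurableSet_le (((hψc z).measurable.comp measurable_fst).div_const _) measurable_snd
  rw [Measure.prod_apply hm]
  have key : ∀ s ∈ Set.Icc (0:ℝ) 1, unif (Prod.mk s ⁻¹' {p : ℝ × ℝ | ψ z p.1 / c ≤ p.2}) =
      ENNReal.ofReal (1 - ψ z s / c) := by
    intro s hs
    obtain ⟨a, b⟩ := hψb z s hs.1
    have hw0 : 0 ≤ ψ z s / c := by positivity
    have he : Prod.mk s ⁻¹' {p : ℝ × ℝ | ψ z p.1 / c ≤ p.2} = Set.Ici (ψ z s / c) := by
      ext t; simp
    rw [he, unif, Measure.restrict_apply measurableSet_Ici]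
    have hI : Set.Ici (ψ z s / c) ∩ Set.Icc 0 1 = Set.Icc (ψ z s / c) 1 := by
      ext t; simp only [Set.mem_inter_iff, Set.mem_Ici, Set.mem_Icc]
      constructor
      · rintro ⟨p, _, q⟩; exact ⟨p, q⟩
      · rintro ⟨p, q⟩; exact ⟨p, hw0.trans p, q⟩
    rw [hI, Real.volume_Icc]
  conv_lhs => rw [unif]
  rw [← unif] at *
  have hae : ∀ᵐ s ∂unif, s ∈ Set.Icc (0:ℝ) 1 := ae_restrict_mem measurableSet_Icc
  rw [lintegral_congr_ae (hae.mono key)]
  have hint : Integrable (fun s => 1 - ψ z s / c) unif :=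
    (continuous_const.sub ((hψc z).div_const _)).continuousOn.integrableOn_Icc
  rw [← ofReal_integral_eq_lintegral_ofReal hint (hae.mono fun s hs => ?_)]
  · congr 1
    rw [unif, integral_Icc_eq_integral_Ioc, ← intervalIntegral.integral_of_le zero_le_one,
      intervalIntegral.integral_sub intervalIntegrable_const
        (((hψc z).div_const _).intervalIntegrable 0 1),
      intervalIntegral.integral_div, hψi]
    simp
  · obtain ⟨a, b⟩ := hψb z s hs.1
    simp only [Pi.zero_apply, sub_nonneg]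
    rw [div_le_one hc']
    have : s * sqn z ≤ 1 * sqn z := mul_le_mul_of_nonneg_right hs.2 (sqn_nonneg z)
    linarith

lemma attempt_law (hc : 0 < c) (hψm : Measurable (Function.uncurry ψ))
    (hψc : ∀ z, Continuous (ψ z))
    (hψb : ∀ z s, 0 ≤ s → 0 ≤ ψ z s ∧ ψ z s ≤ s * sqn z)
    (hψi : ∀ z, ∫ s in (0:ℝ)..1, ψ z s = g z) (hg : Measurable g)
    (h1 : ∀ z, 0 ≤ g z) (h2 : ∀ z, g z ≤ sqn z / 2) {B : Set (Fin k → ℝ)}
    (hB : MeasurableSet B) :
    (attLaw k M c).real (Prod.fst ⁻¹' B ∩ AccSet c ψ) = ∫ z in B, ab M c g z ∂gauss k := by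
  classical
  have hm : MeasurableSet (Prod.fst ⁻¹' B ∩ AccSet (M := M) c ψ) :=
    (measurable_fst hB).inter (measurableSet_acc c hψm)
  have key : ∀ z, ((poissonMeasure c).prod (Measure.pi fun _ : Fin M => unif.prod unif))
      (Prod.mk z ⁻¹' (Prod.fst ⁻¹' B ∩ AccSet (M := M) c ψ)) =
      B.indicator (fun z => ENNReal.ofReal (ab M c g z)) z := by
    intro z
    by_cases hzB : z ∈ B
    swap
    · rw [Set.indicator_of_notMem hzB]
      have he : Prod.mk z ⁻¹' (Prod.fst ⁻¹' B ∩ AccSet (M := M) c ψ) = ∅ := by ext q; simp [hzB]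
      rw [he, measure_empty]
    rw [Set.indicator_of_mem hzB]
    by_cases hz : sqn z ≤ c
    swap
    · rw [ab, if_neg hz, ENNReal.ofReal_zero]
      have he : Prod.mk z ⁻¹' (Prod.fst ⁻¹' B ∩ AccSet (M := M) c ψ) = ∅ := by
        ext q; simp [AccSet, Accv, hz]
      rw [he, measure_empty]
    rw [Measure.prod_apply (measurable_prodMk_left hm), lintegral_countable',
      tsum_eq_sum (s := Finset.range (M + 1))]
    · rw [ab, if_pos hz, ENNReal.ofReal_sum_of_nonneg fun n _ =>
        mul_nonneg (pm_nonneg c n) (pow_nonneg (g_div_le h2 hz) n)]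
      refine Finset.sum_congr rfl fun n hn => ?_
      have hn' : n ≤ M := Nat.lt_succ_iff.1 (Finset.mem_range.1 hn)
      have hset : Prod.mk n ⁻¹' (Prod.mk z ⁻¹' (Prod.fst ⁻¹' B ∩ AccSet (M := M) c ψ)) =
          Set.univ.pi fun j : Fin M =>
            if (j:ℕ) < n then {p : ℝ × ℝ | ψ z p.1 / c ≤ p.2} else Set.univ := by
        ext q
        simp only [Set.mem_preimage, Set.mem_inter_iff, AccSet, Accv, Set.mem_ofPred_eq,
          Set.mem_pi, Set.mem_univ, true_implies, hzB, hz, hn', true_and]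
        refine forall_congr' fun j => ?_
        split_ifs with hj <;> simp [hj]
      rw [hset, Measure.pi_pi, poissonMeasure_singleton, mul_comm]
      have hcard : (Finset.univ.filter fun j : Fin M => (j:ℕ) < n).card = n := by
        rw [Fin.card_filter_val_lt]; omega
      simp only [apply_ite (unif.prod unif), measure_univ,
        inner_law hc hψm hψc hψb hψi hz]
      rw [Finset.prod_ite, Finset.prod_const, Finset.prod_const_one, mul_one, hcard,
        ← ENNReal.ofReal_pow (g_div_le h2 hz), ← ENNReal.ofReal_mul (by positivity)]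
      rfl
    · intro n hn
      have hn' : ¬ n ≤ M := fun h => hn (Finset.mem_range.2 (Nat.lt_succ_of_le h))
      have hset : Prod.mk n ⁻¹' (Prod.mk z ⁻¹' (Prod.fst ⁻¹' B ∩ AccSet (M := M) c ψ)) = ∅ := by
        ext q; simp [AccSet, Accv, hn']
      rw [hset, measure_empty, zero_mul]
  rw [measureReal_def, attLaw, Measure.prod_apply hm, lintegral_congr key,
    lintegral_indicator hB]
  have hint : Integrable (ab M c g) (gauss k) := by
    refine Integrable.of_bound (measurable_ab hg).aestronglyMeasurable 1 (ae_of_all _ fun z => ?_)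
    rw [Real.norm_eq_abs, abs_of_nonneg (ab_nonneg h2 z)]
    exact (ab_le_exp hc h2 z).trans (exp_le_one_iff.2 (by linarith [h1 z]))
  rw [← ofReal_integral_eq_lintegral_ofReal hint.integrableOn
    (ae_of_all _ fun z => ab_nonneg h2 z),
    ENNReal.toReal_ofReal (setIntegral_nonneg hB fun z _ => ab_nonneg h2 z)]

end Vale.Agent.P347
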