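import Vale.Agent.P347.Attempt

/-! # P347: the first accepted attempt in one block, compared with the block target. -/

namespace Vale.Agent.P347

open MeasureTheory Real ProbabilityTheory

open scoped NNReal

/-- The value carried by the first index satisfying `acc` (zero when there is none). -/
noncomputable def pick {A : ℕ} {X : Type*} [AddCommMonoid X] (acc : Fin A → Prop)
    (z : Fin A → X) : X :=
  open scoped Classical in ∑ a, if acc a ∧ ∀ a' < a, ¬ acc a' then z a else 0

lemma pick_eq {A : ℕ} {X : Type*} [AddCommMonoid X] {acc : Fin A → Prop} {z : Fin A → X}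
    {a : Fin A} (ha : acc a) (hb : ∀ a' < a, ¬ acc a') : pick acc z = z a := by
  classical
  rw [pick, Finset.sum_eq_single a]
  · rw [if_pos ⟨ha, hb⟩]
  · intro a' _ hne
    rw [if_neg]
    rintro ⟨h, h'⟩
    rcases lt_or_gt_of_ne hne with hlt | hgt
    · exact hb a' hlt h
    · exact h' a hgt ha
  · simp

lemma measurable_pick {A : ℕ} {X T : Type*} [AddCommMonoid X] [MeasurableSpace X]
    [MeasurableAdd₂ X] [MeasurableSpace T] {acc : T → Fin A → Prop} {z : T → Fin A → X}
    (hacc : ∀ a, MeasurableSet {t | acc t a}) (hz : ∀ a, Measurable fun t => z t a) :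
    Measurable fun t => pick (acc t) (z t) := by
  classical
  unfold pick
  refine Finset.measurable_sum _ fun a _ => Measurable.ite ?_ (hz a) measurable_const
  have h2 : ∀ a', MeasurableSet {t | a' < a → ¬ acc t a'} := by
    intro a'
    by_cases h : a' < a
    · simpa [h, Set.compl_def] using (hacc a').compl
    · simp [h]
  convert! (hacc a).inter (MeasurableSet.iInter h2) using 1
  ext t; simp

lemma first_success {A : ℕ} {T X : Type*} [MeasurableSpace T] [MeasurableSpace X]
    [AddCommMonoid X] (P : Measure T) [IsProbabilityMeasure P] {S : Set T}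
    (hS : MeasurableSet S) {Z : T → X} (hZ : Measurable Z) {B : Set X} (hB : MeasurableSet B) :
    (∑ a ∈ Finset.range A, (1 - P.real S) ^ a) * P.real (Z ⁻¹' B ∩ S) ≤
      (Measure.pi fun _ : Fin A => P).real
        {ω | pick (fun a => ω a ∈ S) (fun a => Z (ω a)) ∈ B} := by
  classical
  set Ev : Fin A → Set (Fin A → T) := fun a => Set.univ.pi fun a' =>
    if a' < a then Sᶜ else if a' = a then Z ⁻¹' B ∩ S else Set.univ with hEv
  have hmeas : ∀ a, MeasurableSet (Ev a) := fun a => MeasurableSet.univ_pi fun a' => by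
    split_ifs
    exacts [hS.compl, (hZ hB).inter hS, MeasurableSet.univ]
  have hmem : ∀ a ω, ω ∈ Ev a → (ω a ∈ S ∧ Z (ω a) ∈ B ∧ ∀ a' < a, ω a' ∉ S) := by
    intro a ω h
    simp only [hEv, Set.mem_pi, Set.mem_univ, true_implies] at h
    have ha := h a
    simp at ha
    refine ⟨ha.2, ha.1, fun a' hlt => ?_⟩
    simpa [hlt] using h a'
  have hprob : ∀ a, (Measure.pi fun _ : Fin A => P).real (Ev a) =
      (1 - P.real S) ^ (a:ℕ) * P.real (Z ⁻¹' B ∩ S) := by
    intro a
    rw [measureReal_def, hEv, Measure.pi_pi, ENNReal.toReal_prod,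
      ← Finset.mul_prod_erase Finset.univ _ (Finset.mem_univ a)]
    have h1 : ∏ a' ∈ Finset.univ.erase a,
        (P (if a' < a then Sᶜ else if a' = a then Z ⁻¹' B ∩ S else Set.univ)).toReal =
        ∏ a' ∈ Finset.univ.erase a, (if a' < a then 1 - P.real S else 1) := by
      refine Finset.prod_congr rfl fun a' ha' => ?_
      have hne : a' ≠ a := Finset.ne_of_mem_erase ha'
      split_ifs
      · rw [← measureReal_def, probReal_compl_eq_one_sub hS]
      · simp
    have h2 : (Finset.univ.erase a).filter (fun a' => a' < a) = Finset.Iio a := by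
      ext a'; simpa using fun h : a' < a => h.ne
    rw [h1, Finset.prod_ite, Finset.prod_const, Finset.prod_const_one, h2, Fin.card_Iio]
    simp only [lt_self_iff_false, if_false, if_true, ← measureReal_def]
    ring
  rw [Finset.sum_mul, ← Fin.sum_univ_eq_sum_range]
  simp_rw [← hprob]
  rw [← measureReal_biUnion_finset ?_ fun a _ => hmeas a]
  · refine measureReal_mono (Set.iUnion₂_subset fun a _ ω hω => ?_)
    obtain ⟨ha, hb, hlt⟩ := hmem a ω hω
    rw [Set.mem_ofPred_eq, pick_eq (acc := fun a => ω a ∈ S) ha hlt]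
    exact hb
  · intro a _ a' _ hne
    rw [Function.onFun, Set.disjoint_left]
    intro ω h h'
    obtain ⟨ha, -, hlt⟩ := hmem a ω h
    obtain ⟨ha', -, hlt'⟩ := hmem a' ω h'
    rcases lt_or_gt_of_ne hne with hl | hl
    · exact hlt' a hl ha
    · exact hlt a' hl ha'

variable {k : ℕ}

/-- The block target: the Gaussian law reweighted by `exp (-g)`. -/
noncomputable def blockTarget (g : (Fin k → ℝ) → ℝ) : Measure (Fin k → ℝ) :=
  ENNReal.ofReal (∫ z, exp (-g z) ∂gauss k)⁻¹ •
    (gauss k).withDensity fun z => ENNReal.ofReal (exp (-g z))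

/-- The law of the output of one block. -/
noncomputable def blockLaw (A M : ℕ) (c : ℝ≥0) (ψ : (Fin k → ℝ) → ℝ → ℝ) :
    Measure (Fin k → ℝ) :=
  (Measure.pi fun _ : Fin A => attLaw k M c).map
    fun ω => pick (fun a => ω a ∈ AccSet c ψ) (fun a => (ω a).1)

lemma smul_withDensity_real {X : Type*} [MeasurableSpace X] (μ : Measure X) {t : ℝ} (ht : 0 ≤ t)
    {f : X → ℝ} (hf : ∀ x, 0 ≤ f x) (hi : Integrable f μ) {B : Set X} (hB : MeasurableSet B) :
    (ENNReal.ofReal t • μ.withDensity fun x => ENNReal.ofReal (f x)) B =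
      ENNReal.ofReal (t * ∫ x in B, f x ∂μ) := by
  rw [Measure.smul_apply, smul_eq_mul, withDensity_apply _ hB,
    ← ofReal_integral_eq_lintegral_ofReal hi.integrableOn (ae_of_all _ hf),
    ENNReal.ofReal_mul ht]

lemma block_minorant {A M : ℕ} {c : ℝ≥0} {ψ : (Fin k → ℝ) → ℝ → ℝ} {g : (Fin k → ℝ) → ℝ}
    {ℓ : ℝ} (hc : 0 < c) (hcℓ : 4 * ℓ ≤ c) (hM : 3 * (c:ℝ) ≤ M)
    (hA : 2 * ℓ * (√2) ^ k ≤ A) (hℓ : 4 * (2:ℝ) ^ k * exp (-ℓ) ≤ 1)
    (hψm : Measurable (Function.uncurry ψ)) (hψc : ∀ z, Continuous (ψ z))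
    (hψb : ∀ z s, 0 ≤ s → 0 ≤ ψ z s ∧ ψ z s ≤ s * sqn z)
    (hψi : ∀ z, ∫ s in (0:ℝ)..1, ψ z s = g z) (hg : Measurable g)
    (h1 : ∀ z, 0 ≤ g z) (h2 : ∀ z, g z ≤ sqn z / 2) :
    IsProbabilityMeasure (blockTarget g) ∧ IsProbabilityMeasure (blockLaw A M c ψ) ∧
      ∃ ρ : Measure (Fin k → ℝ), ρ ≤ blockLaw A M c ψ ∧ ρ ≤ blockTarget g ∧
        1 - 3 * (2:ℝ) ^ k * exp (-ℓ) ≤ ρ.real Set.univ := by
  have hie : Integrable (fun z => exp (-g z)) (gauss k) := by
    refine Integrable.of_bound (measurable_exp.comp hg.neg).aestronglyMeasurable 1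
      (ae_of_all _ fun z => ?_)
    rw [Real.norm_eq_abs, abs_exp]
    exact exp_le_one_iff.2 (by linarith [h1 z])
  have hia : Integrable (ab M c g) (gauss k) :=
    hie.mono' (measurable_ab hg).aestronglyMeasurable (ae_of_all _ fun z => by
      rw [Real.norm_eq_abs, abs_of_nonneg (ab_nonneg h2 z)]; exact ab_le_exp hc h2 z)
  set Ze := ∫ z, exp (-g z) ∂gauss k with hZe
  set p := ∫ z, ab M c g z ∂gauss k with hp
  set R := (√2 : ℝ) ^ k with hR
  have hR1 : 1 ≤ R := one_le_pow₀ (Real.one_le_sqrt.2 (by norm_num))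
  have hR2 : R * R = (2:ℝ) ^ k := by
    rw [hR, ← mul_pow, Real.mul_self_sqrt (by norm_num)]
  have hZlow : R⁻¹ ≤ Ze := by
    rw [hR, ← integral_gauss_exp_neg_half]
    exact integral_mono (integrable_gauss_exp (by norm_num)) hie fun z =>
      exp_le_exp.2 (by linarith [h2 z])
  have hZpos : 0 < Ze := lt_of_lt_of_le (by positivity) hZlow
  have hpZ : p ≤ Ze := integral_mono hia hie (ab_le_exp hc h2)
  have hδ : Ze ≤ p + 2 * R * exp (-ℓ) := by
    have i1 : Integrable (fun z => ab M c g z + exp (-(c:ℝ))) (gauss k) :=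
      hia.add (integrable_const _)
    have i2 : Integrable (fun z => exp (1/4 * sqn z) * exp (-(c:ℝ) / 4)) (gauss k) :=
      (integrable_gauss_exp (by norm_num)).mul_const _
    have := integral_mono hie (i1.add i2) (exp_sub_ab_le hc hM h1 h2)
    simp only [Pi.add_apply] at this
    rw [integral_add i1 i2, integral_add hia (integrable_const _), integral_mul_const,
      integral_gauss_exp_quarter, integral_const, probReal_univ, one_smul, ← hR] at this
    have a1 : exp (-(c:ℝ)) ≤ exp (-ℓ) := exp_le_exp.2 (by linarith [NNReal.coe_nonneg c])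
    have a2 : exp (-(c:ℝ) / 4) ≤ exp (-ℓ) := exp_le_exp.2 (by linarith)
    calc Ze ≤ p + exp (-(c:ℝ)) + R * exp (-(c:ℝ) / 4) := this
      _ ≤ p + exp (-ℓ) + R * exp (-ℓ) := by gcongr
      _ ≤ p + 2 * R * exp (-ℓ) := by nlinarith [exp_pos (-ℓ)]
  have hδ' : 1 - 2 * (2:ℝ) ^ k * exp (-ℓ) ≤ p / Ze := by
    rw [le_div_iff₀ hZpos]
    have : (1:ℝ) ≤ R * Ze := by
      calc (1:ℝ) = R * R⁻¹ := (mul_inv_cancel₀ (by positivity)).symm
        _ ≤ R * Ze := by gcongr
    calc (1 - 2 * (2:ℝ) ^ k * exp (-ℓ)) * Ze = Ze - 2 * R * exp (-ℓ) * (R * Ze) := by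
          rw [← hR2]; ring
      _ ≤ Ze - 2 * R * exp (-ℓ) * 1 := by gcongr
      _ ≤ p := by linarith
  have hp2 : (2 * R)⁻¹ ≤ p := by
    have : (1:ℝ) / 2 ≤ p / Ze := le_trans (by linarith) hδ'
    rw [le_div_iff₀ hZpos] at this
    calc (2 * R)⁻¹ = 1 / 2 * R⁻¹ := by rw [mul_inv]; ring
      _ ≤ 1 / 2 * Ze := by gcongr
      _ ≤ p := this
  have hppos : 0 < p := lt_of_lt_of_le (by positivity) hp2
  have hmeas : Measurable fun ω : Fin A → Att k M =>
      pick (fun a => ω a ∈ AccSet c ψ) (fun a => (ω a).1) :=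
    measurable_pick (fun a => measurable_pi_apply a (measurableSet_acc c hψm))
      fun a => (measurable_pi_apply a).fst
  have hprobT : IsProbabilityMeasure (blockTarget g) := ⟨by
    rw [blockTarget, smul_withDensity_real _ (by positivity) (fun z => (exp_pos _).le) hie
      MeasurableSet.univ, setIntegral_univ, ← hZe, inv_mul_cancel₀ hZpos.ne', ENNReal.ofReal_one]⟩
  have hprobL : IsProbabilityMeasure (blockLaw A M c ψ) := by
    unfold blockLaw
    exact Measure.isProbabilityMeasure_map hmeas.aemeasurable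
  have hacc : (attLaw k M c).real (AccSet c ψ) = p := by
    simpa using attempt_law (M := M) hc hψm hψc hψb hψi hg h1 h2 MeasurableSet.univ
  have hp1 : p ≤ 1 := hacc ▸ measureReal_le_one
  set G := ∑ a ∈ Finset.range A, (1 - p) ^ a with hG
  have hG0 : 0 ≤ G := Finset.sum_nonneg fun a _ => pow_nonneg (by linarith) a
  set t := min G Ze⁻¹ with ht
  have ht0 : 0 ≤ t := le_min hG0 (by positivity)
  refine ⟨hprobT, hprobL,
    ENNReal.ofReal t • (gauss k).withDensity fun z => ENNReal.ofReal (ab M c g z), ?_, ?_, ?_⟩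
  · refine Measure.le_iff.2 fun B hB => ?_
    rw [smul_withDensity_real _ ht0 (ab_nonneg h2) hia hB, blockLaw, Measure.map_apply hmeas hB,
      ENNReal.ofReal_le_iff_le_toReal (measure_ne_top _ _), ← measureReal_def]
    calc t * ∫ z in B, ab M c g z ∂gauss k ≤ G * ∫ z in B, ab M c g z ∂gauss k :=
          mul_le_mul_of_nonneg_right (min_le_left _ _)
            (setIntegral_nonneg hB fun z _ => ab_nonneg h2 z)
      _ ≤ _ := by
          have := first_success (A := A) (attLaw k M c) (measurableSet_acc c hψm)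
            measurable_fst hB
          rw [hacc, attempt_law hc hψm hψc hψb hψi hg h1 h2 hB] at this
          exact this
  · refine Measure.le_iff.2 fun B hB => ?_
    rw [smul_withDensity_real _ ht0 (ab_nonneg h2) hia hB, blockTarget,
      smul_withDensity_real _ (by positivity) (fun z => (exp_pos _).le) hie hB]
    refine ENNReal.ofReal_le_ofReal ?_
    exact mul_le_mul (min_le_right _ _)
      (setIntegral_mono hia.integrableOn hie.integrableOn (ab_le_exp hc h2))
      (setIntegral_nonneg hB fun z _ => ab_nonneg h2 z) (by positivity)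
  · rw [measureReal_def, smul_withDensity_real _ ht0 (ab_nonneg h2) hia MeasurableSet.univ,
      setIntegral_univ, ← hp, ENNReal.toReal_ofReal (mul_nonneg ht0 hppos.le)]
    have hgeo : G * p = 1 - (1 - p) ^ A := by
      have := geom_sum_mul (1 - p) A
      rw [← hG] at this
      linarith [this]
    have hr : (1 - p) ^ A ≤ exp (-ℓ) := by
      calc (1 - p) ^ A ≤ exp (-p) ^ A :=
            pow_le_pow_left₀ (by linarith) (one_sub_le_exp_neg p) A
        _ = exp (-(A * p)) := by rw [← exp_nat_mul]; ring_nf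
        _ ≤ exp (-ℓ) := by
            refine exp_le_exp.2 (neg_le_neg ?_)
            calc ℓ = 2 * ℓ * R * (2 * R)⁻¹ := by field_simp
              _ ≤ (A:ℝ) * p := mul_le_mul hA hp2 (by positivity) (by positivity)
    have h2k : (1:ℝ) ≤ 2 ^ k := one_le_pow₀ (by norm_num)
    rcases min_choice G Ze⁻¹ with h | h <;> rw [ht, h]
    · rw [hgeo]; nlinarith [exp_pos (-ℓ)]
    · rw [← div_eq_inv_mul]; nlinarith [exp_pos (-ℓ)]

end Vale.Agent.P347
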