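import Mathlib

/-! # P347: the standard Gaussian law on `Fin k → ℝ`. -/

namespace Vale.Agent.P347

open MeasureTheory Real

variable {k : ℕ}

/-- Squared Euclidean norm of a vector in `Fin k → ℝ`. -/
noncomputable def sqn (z : Fin k → ℝ) : ℝ := ∑ l, z l ^ 2

lemma sqn_nonneg (z : Fin k → ℝ) : 0 ≤ sqn z := Finset.sum_nonneg fun l _ => sq_nonneg _

lemma continuous_sqn : Continuous (sqn (k := k)) := by
  unfold sqn; fun_prop

lemma exp_neg_sqn (a : ℝ) (z : Fin k → ℝ) :
    exp (-a * sqn z) = ∏ l, exp (-a * z l ^ 2) := by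
  rw [sqn, Finset.mul_sum, exp_sum]

lemma integrable_exp_sqn {a : ℝ} (ha : 0 < a) :
    Integrable (fun z : Fin k → ℝ => exp (-a * sqn z)) := by
  simp_rw [exp_neg_sqn]
  exact Integrable.fintype_prod fun _ => integrable_exp_neg_mul_sq ha

lemma integral_exp_sqn (a : ℝ) :
    ∫ z : Fin k → ℝ, exp (-a * sqn z) = √(π / a) ^ k := by
  simp_rw [exp_neg_sqn]
  rw [integral_fintype_prod_volume_eq_pow (fun x : ℝ => exp (-a * x ^ 2)), integral_gaussian,
    Fintype.card_fin]

/-- Standard Gaussian density. -/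
noncomputable def gdens (z : Fin k → ℝ) : ℝ := exp (-(1/2) * sqn z) / √(2 * π) ^ k

lemma gdens_pos (z : Fin k → ℝ) : 0 < gdens z := by
  unfold gdens; positivity

lemma continuous_gdens : Continuous (gdens (k := k)) := by
  unfold gdens
  exact (continuous_exp.comp (continuous_const.mul continuous_sqn)).div_const _

/-- Standard Gaussian law. -/
noncomputable def gauss (k : ℕ) : Measure (Fin k → ℝ) :=
  volume.withDensity fun z => ENNReal.ofReal (gdens z)

instance isProb_gauss : IsProbabilityMeasure (gauss k) := by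
  refine ⟨?_⟩
  rw [gauss, withDensity_apply _ MeasurableSet.univ, setLIntegral_univ]
  have hi : Integrable (gdens (k := k)) :=
    (integrable_exp_sqn (by norm_num : (0:ℝ) < 1/2)).div_const _
  rw [← ofReal_integral_eq_lintegral_ofReal hi (ae_of_all _ fun z => (gdens_pos z).le)]
  simp only [gdens]
  rw [integral_div, integral_exp_sqn, ← div_pow]
  rw [show π / (1/2) = 2 * π by ring, div_self (by positivity), one_pow, ENNReal.ofReal_one]

lemma setIntegral_gauss (h : (Fin k → ℝ) → ℝ) {B : Set (Fin k → ℝ)} (hB : MeasurableSet B) :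
    ∫ z in B, h z ∂gauss k = ∫ z in B, gdens z * h z := by
  rw [gauss, setIntegral_withDensity_eq_setIntegral_toReal_smul
    (continuous_gdens.measurable.ennreal_ofReal)
    (ae_of_all _ fun z => ENNReal.ofReal_lt_top) h hB]
  simp [ENNReal.toReal_ofReal (gdens_pos _).le]

lemma integral_gauss (h : (Fin k → ℝ) → ℝ) :
    ∫ z, h z ∂gauss k = ∫ z, gdens z * h z := by
  simpa using setIntegral_gauss h MeasurableSet.univ

lemma integral_gauss_exp {t : ℝ} :
    ∫ z, exp (t * sqn z) ∂gauss k = (√(π / (1/2 - t)) / √(2 * π)) ^ k := by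
  rw [integral_gauss, div_pow, ← integral_exp_sqn, ← integral_div]
  refine integral_congr_ae (ae_of_all _ fun z => ?_)
  simp only [gdens, div_mul_eq_mul_div, ← exp_add]
  ring_nf

lemma integrable_gauss_exp {t : ℝ} (ht : t < 1/2) :
    Integrable (fun z => exp (t * sqn z)) (gauss k) := by
  rw [gauss, integrable_withDensity_iff_integrable_smul'
    (continuous_gdens.measurable.ennreal_ofReal) (ae_of_all _ fun z => ENNReal.ofReal_lt_top)]
  have h := (integrable_exp_sqn (k := k) (a := 1/2 - t) (by linarith)).div_const (√(2 * π) ^ k)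
  refine h.congr (ae_of_all _ fun z => ?_)
  dsimp only
  rw [ENNReal.toReal_ofReal (gdens_pos z).le]
  simp only [smul_eq_mul, gdens, div_mul_eq_mul_div, ← exp_add]
  ring_nf

lemma integral_gauss_exp_neg_half : ∫ z, exp (-(1/2) * sqn z) ∂gauss k = ((√2) ^ k)⁻¹ := by
  rw [integral_gauss_exp, ← inv_pow]
  congr 1
  rw [show π / (1/2 - -(1/2)) = π by norm_num, Real.sqrt_mul (by norm_num) π]
  have := Real.sqrt_pos.2 pi_pos
  field_simp

lemma integral_gauss_exp_quarter : ∫ z, exp (1/4 * sqn z) ∂gauss k = (√2) ^ k := by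
  rw [integral_gauss_exp]
  congr 1
  rw [show π / (1/2 - 1/4) = 2 * (2 * π) by ring, Real.sqrt_mul (by norm_num) (2 * π)]
  have := Real.sqrt_pos.2 (show (0:ℝ) < 2 * π by positivity)
  field_simp

end Vale.Agent.P347
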