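import Mathlib

/-! # P347: product measures and total variation by a common minorant. -/

namespace Vale.Agent.P347

open MeasureTheory

variable {ι : Type*} [Fintype ι] {X : ι → Type*} {mX : ∀ i, MeasurableSpace (X i)}

lemma pi_le_pi {μ ν : ∀ i, Measure (X i)} (h : ∀ i, μ i ≤ ν i) :
    Measure.pi μ ≤ Measure.pi ν := by
  have ho : OuterMeasure.pi (fun i => (μ i).toOuterMeasure) ≤
      OuterMeasure.pi (fun i => (ν i).toOuterMeasure) := by
    rw [OuterMeasure.le_pi]
    intro s _
    refine le_trans (OuterMeasure.pi_pi_le _ _) (Finset.prod_le_prod' fun i _ => ?_)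
    exact h i (s i)
  refine Measure.le_iff.2 fun s hs => ?_
  rw [Measure.pi_def, Measure.pi_def, toMeasure_apply _ _ hs, toMeasure_apply _ _ hs]
  exact ho s

lemma pi_withDensity_ofReal {μ : ∀ i, Measure (X i)} [∀ i, SigmaFinite (μ i)]
    (h : ∀ i, X i → ℝ) (hn : ∀ i x, 0 ≤ h i x) (hint : ∀ i, Integrable (h i) (μ i)) :
    Measure.pi (fun i => (μ i).withDensity fun x => ENNReal.ofReal (h i x)) =
      (Measure.pi μ).withDensity fun x => ENNReal.ofReal (∏ i, h i (x i)) := by
  haveI : ∀ i, IsFiniteMeasure ((μ i).withDensity fun x => ENNReal.ofReal (h i x)) :=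
    fun i => isFiniteMeasure_withDensity_ofReal (hint i).hasFiniteIntegral
  refine Measure.pi_eq fun s hs => ?_
  have hm : MeasurableSet (Set.univ.pi s) := MeasurableSet.univ_pi hs
  have hp : Integrable (fun x : ∀ i, X i => ∏ i, h i (x i)) (Measure.pi μ) :=
    Integrable.fintype_prod_dep hint
  rw [withDensity_apply _ hm, ← ofReal_integral_eq_lintegral_ofReal hp.integrableOn
    (ae_of_all _ fun x => Finset.prod_nonneg fun i _ => hn i (x i))]
  have e : ∫ x in Set.univ.pi s, ∏ i, h i (x i) ∂Measure.pi μ =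
      ∏ i, ∫ x in s i, h i x ∂μ i := by
    rw [Measure.restrict_pi_pi, integral_fintype_prod_eq_prod]
  rw [e, ENNReal.ofReal_prod_of_nonneg fun i _ => setIntegral_nonneg (hs i) fun x _ => hn i x]
  refine Finset.prod_congr rfl fun i _ => ?_
  rw [withDensity_apply _ (hs i), ofReal_integral_eq_lintegral_ofReal (hint i).integrableOn
    (ae_of_all _ fun x => hn i x)]

lemma abs_real_sub_le {Y : Type*} {mY : MeasurableSpace Y} (μ ν ρ : Measure Y)
    [IsProbabilityMeasure μ] [IsProbabilityMeasure ν] (hμ : ρ ≤ μ) (hν : ρ ≤ ν)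
    {B : Set Y} (hB : MeasurableSet B) : |μ.real B - ν.real B| ≤ 1 - ρ.real Set.univ := by
  haveI : IsFiniteMeasure ρ := isFiniteMeasure_of_le μ hμ
  have key : ∀ (a b : Measure Y) [IsProbabilityMeasure a] [IsProbabilityMeasure b],
      ρ ≤ a → ρ ≤ b → a.real B - b.real B ≤ 1 - ρ.real Set.univ := by
    intro a b _ _ ha hb
    have h1 : ρ.real B ≤ b.real B :=
      ENNReal.toReal_mono (measure_ne_top b B) (hb B)
    have h2 : ρ.real Bᶜ ≤ a.real Bᶜ :=
      ENNReal.toReal_mono (measure_ne_top a Bᶜ) (ha Bᶜ)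
    have h3 : a.real Bᶜ = 1 - a.real B := probReal_compl_eq_one_sub hB
    have h4 : ρ.real Bᶜ = ρ.real Set.univ - ρ.real B := measureReal_compl hB
    linarith
  exact abs_sub_le_iff.2 ⟨key μ ν hμ hν, key ν μ hν hμ⟩

end Vale.Agent.P347
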