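import Vale.Agent.P347.Analytic
import Vale.Agent.P347.Measures
import Vale.Agent.P347.Block

/-! # P347: block-separable potentials. -/

namespace Vale.Agent.P347

open MeasureTheory Real

variable {b k : ℕ} {V : (Fin b → Fin k → ℝ) → ℝ}

lemma continuous_single_block (i : Fin b) :
    Continuous fun z : Fin k → ℝ => (Pi.single i z : Fin b → Fin k → ℝ) :=
  continuous_single (A := fun _ : Fin b => Fin k → ℝ) i

lemma sum_sq_single (i : Fin b) (z : Fin k → ℝ) :
    ∑ i', ∑ l, (Pi.single i z : Fin b → Fin k → ℝ) i' l ^ 2 = sqn z := by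
  rw [Finset.sum_eq_single i]
  · simp [sqn]
  · intro i' _ h; simp [h]
  · simp

lemma sum_single_eq (f : Fin b → (Fin k → ℝ) → ℝ) (hf : ∀ x, V x = ∑ i, f i (x i))
    (h0 : V 0 = 0) (x : Fin b → Fin k → ℝ) : ∑ i, V (Pi.single i (x i)) = V x := by
  have key : ∀ i, V (Pi.single i (x i)) = f i (x i) - f i 0 := by
    intro i
    have hz : ∑ j, f j 0 = 0 := by rw [← h0, hf]; simp
    rw [hf, ← Finset.add_sum_erase _ _ (Finset.mem_univ i), Pi.single_eq_same]
    rw [← Finset.add_sum_erase _ _ (Finset.mem_univ i)] at hz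
    have : ∑ j ∈ Finset.univ.erase i, f j ((Pi.single i (x i) : Fin b → Fin k → ℝ) j) =
        ∑ j ∈ Finset.univ.erase i, f j 0 :=
      Finset.sum_congr rfl fun j hj => by rw [Pi.single_eq_of_ne (Finset.ne_of_mem_erase hj)]
    linarith
  simp_rw [key, Finset.sum_sub_distrib]
  rw [← hf x]
  have : ∑ j, f j 0 = 0 := by rw [← h0, hf]; simp
  rw [this, sub_zero]

lemma fderiv_block (hV : Differentiable ℝ V)
    (hsum : ∀ x, ∑ i, V (Pi.single i (x i)) = V x) (x : Fin b → Fin k → ℝ) (i : Fin b)
    (w : Fin k → ℝ) :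
    fderiv ℝ V x (Pi.single i w) = fderiv ℝ V (Pi.single i (x i)) (Pi.single i w) := by
  set v : Fin b → Fin k → ℝ := Pi.single i w with hv
  have line : ∀ y, HasDerivAt (fun t : ℝ => V (y + t • v)) (fderiv ℝ V y v) 0 := by
    intro y
    have h1 : HasDerivAt (fun t : ℝ => y + t • v) v 0 := by
      simpa using ((hasDerivAt_id (0:ℝ)).smul_const v).const_add y
    have h2 : HasFDerivAt V (fderiv ℝ V y) ((fun t : ℝ => y + t • v) 0) := by
      simpa using (hV y).hasFDerivAt
    exact h2.comp_hasDerivAt 0 h1
  have hconst : (fun t : ℝ => V (x + t • v)) = fun t : ℝ =>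
      V (Pi.single i (x i) + t • v) + ∑ j ∈ Finset.univ.erase i, V (Pi.single j (x j)) := by
    funext t
    rw [← hsum (x + t • v), ← Finset.add_sum_erase _ _ (Finset.mem_univ i)]
    congr 1
    · congr 1
      rw [hv, Pi.add_apply, Pi.smul_apply, Pi.single_eq_same, Pi.single_add, Pi.single_smul]
    · refine Finset.sum_congr rfl fun j hj => ?_
      simp [hv, Finset.ne_of_mem_erase hj]
  have h := line x
  rw [hconst] at h
  exact h.unique ((line (Pi.single i (x i))).add_const _)

lemma grad_inner (i : Fin b) (y : Fin b → Fin k → ℝ) (z : Fin k → ℝ) :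
    ∑ l, fderiv ℝ V y (Pi.single i (Pi.single l 1)) * z l =
      fderiv ℝ V y (Pi.single i z) := by
  have h : (Pi.single i z : Fin b → Fin k → ℝ) =
      ∑ l, z l • (Pi.single i (Pi.single l (1:ℝ)) : Fin b → Fin k → ℝ) := by
    funext i' l'
    by_cases hi : i' = i
    · subst hi; simp [Finset.sum_apply, Pi.single_apply]
    · simp [Finset.sum_apply, hi]
  conv_rhs => rw [h, map_sum]
  exact Finset.sum_congr rfl fun l _ => by rw [map_smul, smul_eq_mul, mul_comm]

/-- Excess slope in block `i`. -/
noncomputable def blockSlope (V : (Fin b → Fin k → ℝ) → ℝ) (i : Fin b) (z : Fin k → ℝ)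
    (s : ℝ) : ℝ := slope0 V (Pi.single i z) (sqn z) s

/-- Excess potential in block `i`. -/
noncomputable def blockExcess (V : (Fin b → Fin k → ℝ) → ℝ) (i : Fin b) (z : Fin k → ℝ) : ℝ :=
  V (Pi.single i z) - sqn z / 2

lemma measurable_blockSlope (hV : ContDiff ℝ 2 V) (i : Fin b) :
    Measurable (Function.uncurry (blockSlope V i)) := by
  refine Continuous.measurable ?_
  have hc := hV.continuous_fderiv (by norm_num)
  have h1 : Continuous fun p : (Fin k → ℝ) × ℝ => (Pi.single i p.1 : Fin b → Fin k → ℝ) :=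
    (continuous_single_block i).comp continuous_fst
  exact ((hc.comp (continuous_snd.smul h1)).clm_apply h1).sub
    (continuous_snd.mul (continuous_sqn.comp continuous_fst))

variable (hV : ContDiff ℝ 2 V) (hd0 : fderiv ℝ V 0 = 0) (h0 : V 0 = 0)
  (hH : ∀ x v, ∑ i, ∑ l, v i l ^ 2 ≤ iteratedFDeriv ℝ 2 V x ![v, v] ∧
    iteratedFDeriv ℝ 2 V x ![v, v] ≤ 2 * ∑ i, ∑ l, v i l ^ 2)

include hV hd0 hH

lemma blockSlope_bounds (i : Fin b) (z : Fin k → ℝ) (s : ℝ) (hs : 0 ≤ s) :
    0 ≤ blockSlope V i z s ∧ blockSlope V i z s ≤ s * sqn z :=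
  slope0_bounds hV hd0 _ _ (fun x => by
    have h := hH x (Pi.single i z)
    rwa [sum_sq_single] at h) hs

include h0

omit hd0 hH in
lemma blockSlope_integral (i : Fin b) (z : Fin k → ℝ) :
    ∫ s in (0:ℝ)..1, blockSlope V i z s = blockExcess V i z := by
  unfold blockSlope
  rw [integral_slope0 hV, h0, sub_zero, blockExcess]

lemma blockExcess_bounds (i : Fin b) (z : Fin k → ℝ) :
    0 ≤ blockExcess V i z ∧ blockExcess V i z ≤ sqn z / 2 := by
  rw [← blockSlope_integral hV h0 i z]
  have hc : Continuous (blockSlope V i z) := continuous_slope0 hV _ _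
  constructor
  · exact intervalIntegral.integral_nonneg zero_le_one fun s hs =>
      (blockSlope_bounds hV hd0 hH i z s hs.1).1
  · have := intervalIntegral.integral_mono_on (zero_le_one : (0:ℝ) ≤ 1)
      (hc.intervalIntegrable (μ := volume) 0 1)
      ((continuous_id.mul continuous_const).intervalIntegrable 0 1)
      fun s hs => (blockSlope_bounds hV hd0 hH i z s hs.1).2
    have e : ∫ s in (0:ℝ)..1, (id * fun _ => sqn z : ℝ → ℝ) s = sqn z / 2 := by
      simp [intervalIntegral.integral_mul_const, integral_id]; ring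
    exact this.trans e.le

omit hd0 h0 hH in
lemma measurable_blockExcess (i : Fin b) : Measurable (blockExcess V i) :=
  ((hV.continuous.comp (continuous_single_block i)).measurable).sub
    (continuous_sqn.measurable.div_const _)

lemma integrable_block (i : Fin b) :
    Integrable fun z : Fin k → ℝ => exp (-V (Pi.single i z)) := by
  refine (integrable_exp_sqn (k := k) (a := 1/2) (by norm_num)).mono'
    (continuous_exp.comp (hV.continuous.comp (continuous_single_block i)).neg).aestronglyMeasurable
    (ae_of_all _ fun z => ?_)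
  rw [norm_eq_abs, abs_exp]
  have := (blockExcess_bounds hV hd0 h0 hH i z).1
  rw [blockExcess] at this
  exact exp_le_exp.2 (by linarith)

lemma blockTarget_eq (i : Fin b) :
    blockTarget (blockExcess V i) = volume.withDensity fun z =>
      ENNReal.ofReal (exp (-V (Pi.single i z)) / ∫ z, exp (-V (Pi.single i z))) := by
  have hi := integrable_block hV hd0 h0 hH i
  have hie : Integrable (fun z => exp (-blockExcess V i z)) (gauss k) := by
    refine Integrable.of_bound
      (measurable_exp.comp (measurable_blockExcess hV i).neg).aestronglyMeasurable 1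
      (ae_of_all _ fun z => ?_)
    rw [norm_eq_abs, abs_exp]
    exact exp_le_one_iff.2 (by linarith [(blockExcess_bounds hV hd0 h0 hH i z).1])
  have e : ∀ z : Fin k → ℝ, gdens z * exp (-blockExcess V i z) =
      exp (-V (Pi.single i z)) / √(2 * π) ^ k := by
    intro z
    rw [gdens, div_mul_eq_mul_div, ← exp_add, blockExcess]
    ring_nf
  ext B hB
  rw [blockTarget, smul_withDensity_real _ (inv_nonneg.2 (integral_nonneg fun z => (exp_pos _).le))
    (fun z => (exp_pos _).le) hie hB, setIntegral_gauss _ hB, integral_gauss,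
    withDensity_apply _ hB, ← ofReal_integral_eq_lintegral_ofReal (hi.div_const _).integrableOn
    (ae_of_all _ fun z => div_nonneg (exp_pos _).le (integral_nonneg fun w => (exp_pos _).le))]
  simp only [e, integral_div]
  have : (0:ℝ) < √(2 * π) ^ k := by positivity
  congr 1
  field_simp

lemma target_eq (hsum : ∀ x, ∑ i, V (Pi.single i (x i)) = V x)
    {B : Set (Fin b → Fin k → ℝ)} (hB : MeasurableSet B) :
    (Measure.pi fun i => blockTarget (blockExcess V i)).real B =
      (∫ x in B, exp (-V x)) / ∫ x, exp (-V x) := by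
  have hi := integrable_block hV hd0 h0 hH
  have hprod : ∀ x : Fin b → Fin k → ℝ,
      exp (-V x) = ∏ i, exp (-V (Pi.single i (x i))) := by
    intro x
    rw [← exp_sum, Finset.sum_neg_distrib, hsum]
  simp_rw [blockTarget_eq hV hd0 h0 hH]
  rw [pi_withDensity_ofReal (fun i z => exp (-V (Pi.single i z)) / ∫ z, exp (-V (Pi.single i z)))
    (fun i z => div_nonneg (exp_pos _).le (integral_nonneg fun w => (exp_pos _).le))
    (fun i => (hi i).div_const _), ← volume_pi]
  simp_rw [Finset.prod_div_distrib, ← hprod]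
  rw [← integral_fintype_prod_volume_eq_prod fun i (z : Fin k → ℝ) => exp (-V (Pi.single i z))]
  simp_rw [← hprod]
  have hiV : Integrable fun x : Fin b → Fin k → ℝ => exp (-V x) := by
    rw [funext hprod, volume_pi]
    exact Integrable.fintype_prod_dep hi
  rw [measureReal_def, withDensity_apply _ hB, ← ofReal_integral_eq_lintegral_ofReal
    (hiV.div_const _).integrableOn
    (ae_of_all _ fun x => div_nonneg (exp_pos _).le (integral_nonneg fun w => (exp_pos _).le)),
    ENNReal.toReal_ofReal (setIntegral_nonneg hB fun x _ =>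
      div_nonneg (exp_pos _).le (integral_nonneg fun w => (exp_pos _).le)), integral_div]

end Vale.Agent.P347
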